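import Mathlib
import Vale.Agent.Lib.P162.Defs

/-!
# P162: two cards that share a coin cannot share a coin again within `r` steps when `2 ^ r ≤ h`
-/

namespace Vale.Agent.Lib.P162.H61

open Finset BigOperators

/-- The bit added by one shuffle to the card in position `p`. -/
def bit (h : ℕ) (c : ZMod h → Bool) (p : ZMod (2 * h)) : ZMod (2 * h) :=
  if xor (decide (h ≤ p.val)) (c (ZMod.cast p)) then 1 else 0

theorem move_eq (h : ℕ) (c : ZMod h → Bool) (p : ZMod (2 * h)) :
    move h c p = 2 * p + bit h c p := rfl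

theorem bit_cases (h : ℕ) (c : ZMod h → Bool) (p : ZMod (2 * h)) :
    bit h c p = 0 ∨ bit h c p = 1 := by
  unfold bit
  split_ifs
  · right; rfl
  · left; rfl

/-- The two positions differ by `d` in one of the two directions. -/
def Near (h : ℕ) (d : ℕ) (z : Fin 2 → ZMod (2 * h)) : Prop :=
  z 1 - z 0 = (d : ZMod (2 * h)) ∨ z 0 - z 1 = (d : ZMod (2 * h))

/-- The invariant: the two positions differ by some `d` with `1 ≤ d < 2 ^ t`. -/
def Sinv (h t : ℕ) (z : Fin 2 → ZMod (2 * h)) : Prop :=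
  ∃ d : ℕ, 1 ≤ d ∧ d < 2 ^ t ∧ Near h d z

theorem two_mul_h (h : ℕ) : (2 : ZMod (2 * h)) * (h : ZMod (2 * h)) = 0 := by
  have e := ZMod.natCast_self (2 * h)
  push_cast at e
  exact e

theorem bit_partner (h : ℕ) [NeZero h] (c : ZMod h → Bool) (p : ZMod (2 * h)) :
    (bit h c p = 0 ∧ bit h c (p + (h : ZMod (2 * h))) = 1) ∨
      (bit h c p = 1 ∧ bit h c (p + (h : ZMod (2 * h))) = 0) := by
  have hh : 0 < h := Nat.pos_of_ne_zero (NeZero.ne h)
  have hcast : (ZMod.cast (p + (h : ZMod (2 * h))) : ZMod h) = ZMod.cast p := by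
    rw [ZMod.cast_add (dvd_mul_left h 2), ZMod.cast_natCast (dvd_mul_left h 2),
      ZMod.natCast_self, add_zero]
  have hval : (p + (h : ZMod (2 * h))).val = (p.val + h) % (2 * h) := by
    rw [ZMod.val_add, ZMod.val_natCast, Nat.mod_eq_of_lt (by omega : h < 2 * h)]
  have hp : p.val < 2 * h := ZMod.val_lt p
  unfold bit
  rw [hcast, hval]
  by_cases h1 : h ≤ p.val
  · have e : p.val + h = (p.val - h) + 2 * h := by omega
    have h2 : (p.val + h) % (2 * h) = p.val - h := by
      rw [e, Nat.add_mod_right, Nat.mod_eq_of_lt (by omega)]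
    have h3 : ¬ h ≤ (p.val + h) % (2 * h) := by
      rw [h2]
      omega
    cases hc : c (ZMod.cast p) <;> simp [h1, h3]
  · have h2 : (p.val + h) % (2 * h) = p.val + h := Nat.mod_eq_of_lt (by omega)
    have h3 : h ≤ (p.val + h) % (2 * h) := by
      rw [h2]
      omega
    cases hc : c (ZMod.cast p) <;> simp [h1, h3]

theorem near_base (h : ℕ) [NeZero h] (c : ZMod h → Bool) (w z' : Fin 2 → ZMod (2 * h))
    (hw : w 1 = w 0 + (h : ZMod (2 * h))) (hz' : ∀ j, move h c (w j) = z' j) :
    Near h 1 z' := by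
  have e0 := hz' 0
  have e1 := hz' 1
  rw [move_eq] at e0 e1
  have h2h := two_mul_h h
  rw [hw] at e1
  unfold Near
  rcases bit_partner h c (w 0) with ⟨b0, b1⟩ | ⟨b0, b1⟩
  · left
    rw [← e0, ← e1, b0, b1]
    push_cast
    linear_combination h2h
  · right
    rw [← e0, ← e1, b0, b1]
    push_cast
    linear_combination -h2h

theorem near_step (h : ℕ) (c : ZMod h → Bool) (d : ℕ) (hd : 1 ≤ d)
    (z z' : Fin 2 → ZMod (2 * h)) (hz' : ∀ j, move h c (z j) = z' j) (hz : Near h d z) :
    Near h (2 * d - 1) z' ∨ Near h (2 * d) z' ∨ Near h (2 * d + 1) z' := by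
  have e0 := hz' 0
  have e1 := hz' 1
  rw [move_eq] at e0 e1
  have hcast : ((2 * d - 1 : ℕ) : ZMod (2 * h)) = 2 * (d : ZMod (2 * h)) - 1 := by
    rw [Nat.cast_sub (by omega)]
    push_cast
    ring
  unfold Near
  rcases hz with hz | hz
  · have key : z' 1 - z' 0 = 2 * (d : ZMod (2 * h)) + (bit h c (z 1) - bit h c (z 0)) := by
      rw [← e0, ← e1, ← hz]
      ring
    rcases bit_cases h c (z 0) with b0 | b0 <;> rcases bit_cases h c (z 1) with b1 | b1
    · right; left; left
      rw [key, b0, b1]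
      push_cast
      ring
    · right; right; left
      rw [key, b0, b1]
      push_cast
      ring
    · left; left
      rw [key, b0, b1, hcast]
      ring
    · right; left; left
      rw [key, b0, b1]
      push_cast
      ring
  · have key : z' 0 - z' 1 = 2 * (d : ZMod (2 * h)) + (bit h c (z 0) - bit h c (z 1)) := by
      rw [← e0, ← e1, ← hz]
      ring
    rcases bit_cases h c (z 0) with b0 | b0 <;> rcases bit_cases h c (z 1) with b1 | b1
    · right; left; right
      rw [key, b0, b1]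
      push_cast
      ring
    · left; right
      rw [key, b0, b1, hcast]
      ring
    · right; right; right
      rw [key, b0, b1]
      push_cast
      ring
    · right; left; right
      rw [key, b0, b1]
      push_cast
      ring

theorem exists_coin (h : ℕ) [NeZero h] (u v : Fin 2 → ZMod (2 * h))
    (hne : Kmat h 2 u v ≠ 0) : ∃ c : ZMod h → Bool, ∀ j, move h c (u j) = v j := by
  by_contra hcon
  apply hne
  have e : (univ.filter fun c : ZMod h → Bool => ∀ j, move h c (u j) = v j) = ∅ := by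
    rw [Finset.filter_eq_empty_iff]
    intro c _ hc
    exact hcon ⟨c, hc⟩
  unfold Kmat stepProb
  rw [e]
  simp

theorem inv_of_pow_ne_zero (h : ℕ) [NeZero h] (w : Fin 2 → ZMod (2 * h))
    (hw : w 1 = w 0 + (h : ZMod (2 * h))) :
    ∀ r : ℕ, 1 ≤ r → ∀ v, (Kmat h 2 ^ r) w v ≠ 0 → Sinv h r v := by
  intro r hr1
  induction r, hr1 using Nat.le_induction with
  | base =>
    intro v hne
    rw [pow_one] at hne
    obtain ⟨c, hc⟩ := exists_coin h w v hne
    exact ⟨1, le_refl 1, by norm_num, near_base h c w v hw hc⟩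
  | succ r hr1 ih =>
    intro v hne
    rw [pow_succ, Matrix.mul_apply] at hne
    obtain ⟨u, -, hu⟩ := Finset.exists_ne_zero_of_sum_ne_zero hne
    have hu1 : (Kmat h 2 ^ r) w u ≠ 0 := left_ne_zero_of_mul hu
    have hu2 : Kmat h 2 u v ≠ 0 := right_ne_zero_of_mul hu
    obtain ⟨d, hd1, hd2, hnear⟩ := ih u hu1
    obtain ⟨c, hc⟩ := exists_coin h u v hu2
    have h2 : 2 ^ (r + 1) = 2 * 2 ^ r := by ring
    rcases near_step h c d hd1 u v hc hnear with hn | hn | hn
    · exact ⟨2 * d - 1, by omega, by omega, hn⟩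
    · exact ⟨2 * d, by omega, by omega, hn⟩
    · exact ⟨2 * d + 1, by omega, by omega, hn⟩

/-- Two cards that share a coin now cannot share a coin again after `r` steps when
`2 ^ r ≤ h`. -/
theorem partner_gap (h : ℕ) [NeZero h] (r : ℕ) (hr1 : 1 ≤ r) (hr : 2 ^ r ≤ h)
    (w v : Fin 2 → ZMod (2 * h)) (hw : w 1 = w 0 + (h : ZMod (2 * h)))
    (hv : v 1 = v 0 + (h : ZMod (2 * h))) : (Kmat h 2 ^ r) w v = 0 := by
  by_contra hne
  obtain ⟨d, hd1, hd2, hnear⟩ := inv_of_pow_ne_zero h w hw r hr1 v hne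
  have hh : 0 < h := Nat.pos_of_ne_zero (NeZero.ne h)
  have h2h := two_mul_h h
  have key : (h : ZMod (2 * h)) = (d : ZMod (2 * h)) := by
    rcases hnear with hn | hn
    · rw [← hn, hv]
      ring
    · rw [← hn, hv]
      linear_combination h2h
  rw [ZMod.natCast_eq_natCast_iff] at key
  unfold Nat.ModEq at key
  rw [Nat.mod_eq_of_lt (by omega), Nat.mod_eq_of_lt (by omega)] at key
  omega

end Vale.Agent.Lib.P162.H61
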